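import Mathlib
import Vale.Agent.Lib.P160.Numeric

/-!
Sparse kernel vectors of symmetric random sign matrices occur only at the sharp rate `1/2`.
-/

namespace Vale.Agent.Results.P160.A_sparse

open Finset Vale.Agent.Lib.P160

/-- The symmetric sign matrix given by independent bits on the unordered pairs `{i, j}`,
`i = j` allowed, that is on the positions on and above the diagonal. -/
def signMat {n : ℕ} (ω : Sym2 (Fin n) → Bool) : Matrix (Fin n) (Fin n) ℝ :=
  Matrix.of fun i j => if ω s(i, j) then 1 else -1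

open Classical in
/-- For every `ε > 0` there is `C` such that for all `n` and all `s ≤ (1 - ε) n`, the probability
that the random symmetric sign matrix `A_n` has a nonzero real kernel vector with at most `s`
nonzero coordinates is at most `C * n ^ 3 * (1 / 2) ^ n`. -/
theorem result (ε : ℝ) (hε : 0 < ε) :
    ∃ C : ℝ, ∀ n s : ℕ, (s : ℝ) ≤ (1 - ε) * n →
      ((univ.filter fun ω : Sym2 (Fin n) → Bool =>
          ∃ x : Fin n → ℝ, x ≠ 0 ∧ (signMat ω).mulVec x = 0 ∧
            (univ.filter fun j => x j ≠ 0).card ≤ s).card : ℝ)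
        / (Fintype.card (Sym2 (Fin n) → Bool) : ℝ)
      ≤ C * (n : ℝ) ^ 3 * (1 / 2) ^ n := by
  obtain ⟨C, _, hC⟩ := bound_le ε hε
  refine ⟨C, fun n s hs => ?_⟩
  have h1 := bad_card_le (ι := Fin n) s
  have h2 := hC n s hs
  rw [Fintype.card_fin] at h1
  have hpos : (0 : ℝ) < (Fintype.card (Sym2 (Fin n) → Bool) : ℝ) := by
    exact_mod_cast Fintype.card_pos
  have hcard : (Fintype.card (Sym2 (Fin n) → Bool) : ℝ) = 2 ^ Fintype.card (Sym2 (Fin n)) := by
    rw [Fintype.card_fun, Fintype.card_bool]; norm_num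
  rw [div_le_iff₀ hpos, hcard]
  have h3 : (univ.filter fun ω : Sym2 (Fin n) → Bool =>
      ∃ x : Fin n → ℝ, x ≠ 0 ∧ (signMat ω).mulVec x = 0 ∧
        (univ.filter fun j => x j ≠ 0).card ≤ s)
      ⊆ (univ.filter fun ω : Sym2 (Fin n) → Bool => Bad ω s) := by
    intro ω hω
    obtain ⟨x, hx0, hxk, hxs⟩ := (mem_filter.1 hω).2
    refine mem_filter.2 ⟨mem_univ _, x, hx0, ?_, ?_⟩
    · intro a
      have := congrFun hxk a
      simp only [Matrix.mulVec, dotProduct, signMat, Matrix.of_apply, Pi.zero_apply] at this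
      rw [← this]
      refine sum_congr rfl fun b _ => ?_
      simp only [mat, sg]
    · have h4 : supp x = univ.filter fun j => x j ≠ 0 := by
        ext j
        simp [mem_supp]
      rw [h4]
      exact hxs
  have h5 : ((univ.filter fun ω : Sym2 (Fin n) → Bool =>
      ∃ x : Fin n → ℝ, x ≠ 0 ∧ (signMat ω).mulVec x = 0 ∧
        (univ.filter fun j => x j ≠ 0).card ≤ s).card : ℝ)
      ≤ ((univ.filter fun ω : Sym2 (Fin n) → Bool => Bad ω s).card : ℝ) := by
    exact_mod_cast card_le_card h3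
  have h6 : ((univ.filter fun ω : Sym2 (Fin n) → Bool => Bad ω s).card : ℝ)
      ≤ 2 ^ Fintype.card (Sym2 (Fin n)) * bound n s := by
    convert h1 using 3
  calc _ ≤ _ := h5
    _ ≤ _ := h6
    _ ≤ 2 ^ Fintype.card (Sym2 (Fin n)) * (C * (n : ℝ) ^ 3 * (1 / 2) ^ n) :=
        mul_le_mul_of_nonneg_left h2 (by positivity)
    _ = _ := by ring

end Vale.Agent.Results.P160.A_sparse
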